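import Vale.Agent.P214.HSW.MeanGen
import Vale.Agent.P214.KMS.Main
import Vale.Agent.P214.INT.Loc
import Vale.Agent.P214.QP.IntV

/-! Sup bound for the height relative to an exactly minimal reference (item L5 of WIN). -/

open Set Filter Topology MeasureTheory Metric
open scoped RealInnerProductSpace ContDiff

set_option linter.unusedSectionVars false

namespace Vale.Agent.P214.HSW

open Vale.Agent.P214 Vale.Agent.P214.FV Vale.Agent.P214.HS Vale.Agent.P214.KMS
  Vale.Agent.P214.Skel

variable {E : Type*} [NormedAddCommGroup E] [InnerProductSpace ℝ E] [FiniteDimensional ℝ E]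

variable {m : ℕ} {T : Submodule ℝ E} {w : E → E} [MeasurableSpace E] [BorelSpace E]

/-- the trace of the second derivative of the squared relative height -/
lemma hess_normsq_rel (hw : KMS.Ref T w) (B : E →L[ℝ] E) (y : E) :
    hess (fun y => ‖rel T w y‖ ^ 2) B y
      = 2 * gsq (rel T w) B y + 2 * ⟪rel T w y, lap (rel T w) B y⟫ := by
  have hv : ContDiff ℝ 2 (rel T w) := hw.contDiff_rel.of_le two_le_inf
  have hid1 : ContDiff ℝ 1 (fun t : ℝ => t) := contDiff_id
  have hid2 : ContDiff ℝ 2 (fun t : ℝ => t) := contDiff_id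
  have h1 := hess_comp (Γ := fun v : E => ‖v‖ ^ 2) (contDiff_norm_sq ℝ) hv B y
  rw [h1]
  have h2 : ∀ v a b : E, fderiv ℝ (fderiv ℝ (fun v : E => ‖v‖ ^ 2)) v a b = 2 * ⟪a, b⟫ := by
    intro v a b
    have := fderiv_fderiv_normsq (W := E) hid2 v a b
    simpa using this
  have h3 : ∀ v a : E, fderiv ℝ (fun v : E => ‖v‖ ^ 2) v a = 2 * ⟪v, a⟫ := by
    intro v a
    have := fderiv_normsq (W := E) hid1 v a
    simp only [deriv_id'', mul_one] at this
    exact this
  simp only [h2, h3]
  rw [gsq, Finset.mul_sum]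

/-- **lower bound for `tr (P D²|v|²)`** relative to an exactly minimal reference -/
lemma hess_normsq_rel_ge (hw : KMS.Ref T w) {S : Submodule ℝ E} (hS : Module.finrank ℝ S = m)
    (hT : Module.finrank ℝ T = m) {y : E} {κ : ℝ}
    (hex : lap w (gpl T (fderiv ℝ w y)).starProjection y = 0)
    (h1 : ‖fderiv ℝ w y‖ ≤ 1) (h2 : ‖fderiv ℝ (fderiv ℝ w) y‖ ≤ κ) :
    -(18 * m * κ ^ 2 * ‖rel T w y‖ ^ 2) ≤ hess (fun y => ‖rel T w y‖ ^ 2) S.starProjection y := by
  rw [hess_normsq_rel hw, hw.lap_rel]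
  have h3 := norm_lap_le hw hS hT hex
  have hκ : 0 ≤ κ := le_trans (norm_nonneg (fderiv ℝ (fderiv ℝ w) y)) h2
  set e := gsq (rel T w) S.starProjection y with he
  have he0 : 0 ≤ e := gsq_nonneg _ _ _
  have he1 : e ≤ 4 * m := by
    rw [he, hw.gsq_eq_ew]
    refine (ew_le T _ S).trans ?_
    rw [hS]
    have : (1 + ‖fderiv ℝ w y‖) ^ 2 ≤ 4 := by
      have := norm_nonneg (fderiv ℝ w y)
      nlinarith
    gcongr
  set a := √e with ha
  set b := √(m : ℝ) with hb
  have ha0 : 0 ≤ a := Real.sqrt_nonneg _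
  have hb0 : 0 ≤ b := Real.sqrt_nonneg _
  have ea : a ^ 2 = e := Real.sq_sqrt he0
  have eb : b ^ 2 = m := Real.sq_sqrt (Nat.cast_nonneg m)
  have hab : a ≤ 2 * b := by
    refine abs_le_of_sq_le_sq' ?_ (by positivity) |>.2
    rw [ea, mul_pow, eb]; linarith
  have h4 : ‖lap w S.starProjection y‖ ≤ 6 * κ * b * a := by
    refine h3.trans ?_
    calc ‖fderiv ℝ (fderiv ℝ w) y‖ * (2 * e + 2 * ‖fderiv ℝ w y‖ * (b * a))
        ≤ κ * (2 * e + 2 * 1 * (b * a)) := by gcongr
      _ = κ * (2 * a * a + 2 * b * a) := by rw [← ea]; ring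
      _ ≤ κ * (2 * (2 * b) * a + 2 * b * a) := by gcongr
      _ = _ := by ring
  rw [inner_neg_right]
  have h5 : ⟪rel T w y, lap w S.starProjection y⟫ ≤ ‖rel T w y‖ * (6 * κ * b * a) :=
    (real_inner_le_norm _ _).trans (by gcongr)
  set v := ‖rel T w y‖
  have h6 : 2 * (v * (6 * κ * b * a)) ≤ 2 * a ^ 2 + 18 * b ^ 2 * κ ^ 2 * v ^ 2 := by
    nlinarith [sq_nonneg (a - 3 * b * κ * v)]
  rw [← eb]
  rw [ea] at h6
  linarith

variable {ν : Measure E} {P : E → E →L[ℝ] E} {z : E}
  {R h δ κ s : ℝ} {Q : ℕ}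

lemma integrableOn_rel_sq (hC : CylStat m T (ball z R) h ν P) (hw : KMS.Ref T w) (x : E)
    (hxs : ‖x - z‖ + s < R) :
    IntegrableOn (fun y => ‖rel T w y‖ ^ 2) (cylSet T x s) ν := by
  have := hC.fin
  have hcpt : IsCompact (closedBall x s) := isCompact_closedBall x s
  obtain ⟨C, hCw⟩ := hcpt.exists_bound_of_continuousOn hw.smooth.continuous.continuousOn
  refine Integrable.mono' (integrable_const ((h + C) ^ 2)) ?_ ?_
  · exact ((hw.contDiff_rel.continuous.norm.pow 2).aestronglyMeasurable)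
  · rw [ae_restrict_iff' (KMS.measurableSet_cylSet T x s)]
    filter_upwards [hC.slab] with y hy hyc
    have hyb : T.starProjection y ∈ ball x s := hyc
    have hyR : T.starProjection y ∈ ball z R := by
      rw [mem_ball] at hyb ⊢
      have := dist_triangle (T.starProjection y) x z
      rw [dist_eq_norm x z] at this
      linarith
    have h1 := hy hyR
    have h2 : ‖w y‖ ≤ C := by
      rw [hw.base y]; exact hCw _ (ball_subset_closedBall hyb)
    rw [Real.norm_of_nonneg (by positivity)]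
    have h3 : ‖rel T w y‖ ≤ h + C := by
      unfold rel
      refine (norm_sub_le _ _).trans ?_
      rw [FV.co_apply]
      linarith
    gcongr

/-- **Sup bound at support points**: `|v(y₀)|² ≤ C s^{-m} ∫_{C_s(py₀)} |v|²`. -/
theorem sup_rel (hI : Skel.IntCyl m Q T z R h δ ν P) (hw : KMS.Ref T w)
    (hex : ∀ y, T.starProjection y ∈ ball z R →
      lap w (gpl T (fderiv ℝ w y)).starProjection y = 0)
    (h1 : ∀ y, T.starProjection y ∈ ball z R → ‖fderiv ℝ w y‖ ≤ 1)
    (h2 : ∀ y, T.starProjection y ∈ ball z R → ‖fderiv ℝ (fderiv ℝ w) y‖ ≤ κ)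
    {y₀ : E} (hy₀ : y₀ ∈ ν.support) (hs : 0 < s) (hys : ‖T.starProjection y₀ - z‖ + s < R) :
    cg m * ‖rel T w y₀‖ ^ 2 ≤ Real.exp (3 * m * κ ^ 2 * s ^ 2 / 2) *
      ((∫ y in cylSet T (T.starProjection y₀) s, ‖rel T w y‖ ^ 2 ∂ν) / s ^ m) := by
  have hfin := hI.cyl.fin
  have hL : LocStat m (T.starProjection ⁻¹' (ball z R)) ν P := INT.locStat_of_cylStat hI.cyl
  have hd := QP.densLow_intCyl hI
  have hball : closedBall y₀ s ⊆ T.starProjection ⁻¹' (ball z R) := by
    intro y hy
    rw [mem_closedBall, dist_eq_norm] at hy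
    rw [mem_preimage, mem_ball, dist_eq_norm]
    have e : T.starProjection y - z = T.starProjection (y - y₀) + (T.starProjection y₀ - z) := by
      rw [map_sub]; abel
    rw [e]
    have := norm_add_le (T.starProjection (y - y₀)) (T.starProjection y₀ - z)
    have := FV.norm_star_le T (y - y₀)
    linarith
  have key := le_mean (F := fun y => ‖rel T w y‖ ^ 2) hL (cg_pos m) hd hy₀
    ((hw.contDiff_rel.of_le two_le_inf).norm_sq ℝ) (fun y => sq_nonneg _)
    (lam := 18 * m * κ ^ 2) (by positivity) hs hball (by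
      filter_upwards [hI.cyl.proj] with y hy hyb
      obtain ⟨S, hS, hP⟩ := hy
      rw [hP]
      exact hess_normsq_rel_ge hw hS hI.cyl.dimT (hex y (hball hyb)) (h1 y (hball hyb))
        (h2 y (hball hyb)))
  have e1 : Real.exp (18 * m * κ ^ 2 * s ^ 2 / 12) = Real.exp (3 * m * κ ^ 2 * s ^ 2 / 2) := by
    congr 1; ring
  rw [e1] at key
  refine key.trans ?_
  have hint := integrableOn_rel_sq hI.cyl hw (T.starProjection y₀) hys
  have h3 : wmass ν y₀ (fun y => ‖rel T w y‖ ^ 2) s
      ≤ ∫ y in cylSet T (T.starProjection y₀) s, ‖rel T w y‖ ^ 2 ∂ν := by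
    unfold wmass
    rw [← integral_indicator (KMS.measurableSet_cylSet T _ s)]
    refine integral_mono_of_nonneg (Eventually.of_forall fun y =>
      mul_nonneg (cut_nonneg y₀ s y) (sq_nonneg _))
      ((integrable_indicator_iff (KMS.measurableSet_cylSet T _ s)).2 hint)
      (Eventually.of_forall fun y => ?_)
    simp only
    by_cases hy : y ∈ cylSet T (T.starProjection y₀) s
    · rw [indicator_of_mem hy]
      have := cut_le_one y₀ s y
      have := sq_nonneg ‖rel T w y‖
      nlinarith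
    · rw [indicator_of_notMem hy, cut_eq_zero hs, zero_mul]
      have h4 : ¬ ‖T.starProjection y - T.starProjection y₀‖ < s := by
        intro hc; apply hy
        change T.starProjection y ∈ ball (T.starProjection y₀) s
        rw [mem_ball, dist_eq_norm]; exact hc
      rw [← map_sub] at h4
      exact (not_lt.1 h4).trans (FV.norm_star_le T _)
  gcongr

end Vale.Agent.P214.HSW
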