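import Vale.Agent.P214.HSW.Sup
import Vale.Agent.P214.COORD.Win
import Vale.Agent.P214.WIN.Props

/-! Proof of `WIN.SupStmt` (item L5). -/

open Set Filter Topology MeasureTheory Metric
open scoped RealInnerProductSpace ContDiff

set_option linter.unusedSectionVars false

namespace Vale.Agent.P214.HSW

open Vale.Agent.P214 Vale.Agent.P214.FV Vale.Agent.P214.HS Vale.Agent.P214.KMS
  Vale.Agent.P214.Skel

variable {E : Type*} [NormedAddCommGroup E] [InnerProductSpace ℝ E] [FiniteDimensional ℝ E]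
  [MeasurableSpace E] [BorelSpace E]

variable {m n : ℕ} {T : Submodule ℝ E} {w : E → E} {ν : Measure E} {P : E → E →L[ℝ] E} {z : E}
  {R h δ κ s : ℝ} {Q : ℕ}

lemma integrableOn_rel_sq' {G : Set E} (hC : CylStat m T G h ν P) (hw : KMS.Ref T w) {C : ℝ}
    (hb : ∀ y, ‖w y‖ ≤ C) (hG : ball z R ⊆ G) :
    IntegrableOn (fun y => ‖rel T w y‖ ^ 2) (cylSet T z R) ν := by
  have := hC.fin
  refine Integrable.mono' (integrable_const ((h + C) ^ 2)) ?_ ?_
  · exact ((hw.contDiff_rel.continuous.norm.pow 2).aestronglyMeasurable)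
  · rw [ae_restrict_iff' (KMS.measurableSet_cylSet T z R)]
    filter_upwards [hC.slab] with y hy hyc
    have h1 := hy (hG hyc)
    rw [Real.norm_of_nonneg (by positivity)]
    have h3 : ‖rel T w y‖ ≤ h + C := by
      unfold rel
      refine (norm_sub_le _ _).trans ?_
      rw [FV.co_apply]
      linarith [hb y]
    gcongr

/-- first two derivatives of the lift of a small reference -/
lemma lift_bounds (F : WIN.Frame m n T) {u : Fin n → REF.E m → ℝ} {ε r : ℝ}
    (hu : WIN.Refe ε r u) (hε : (n : ℝ) * ε ≤ 1) (y : E) :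
    ‖F.lift u y‖ ≤ 1 ∧ ‖fderiv ℝ (F.lift u) y‖ ≤ 1 ∧
      ‖fderiv ℝ (fderiv ℝ (F.lift u)) y‖ ≤ 1 := by
  have hu' : ∀ j : ℕ, ∀ a, ContDiff ℝ j (u a) := fun j a =>
    (hu.smooth a).of_le (WithTop.coe_le_coe.2 le_top)
  have key : ∀ j ≤ 2, ‖iteratedFDeriv ℝ j (F.lift u) y‖ ≤ 1 := by
    intro j hj
    refine (COORD.norm_iteratedFDeriv_lift F (hu' j) y).trans ?_
    calc ∑ a, ‖iteratedFDeriv ℝ j (u a) (F.xc y)‖ ≤ ∑ _a : Fin n, ε :=
          Finset.sum_le_sum fun a _ => hu.small a j (by unfold WIN.sW; omega) _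
      _ = n * ε := by simp
      _ ≤ 1 := hε
  refine ⟨?_, ?_, ?_⟩
  · have := key 0 (by norm_num); rwa [norm_iteratedFDeriv_zero] at this
  · have := key 1 (by norm_num); rwa [norm_iteratedFDeriv_one] at this
  · have := key 2 le_rfl
    rwa [← norm_iteratedFDeriv_fderiv, norm_iteratedFDeriv_one] at this

/-- the lift of a reference is exactly minimal -/
lemma lift_exact (F : WIN.Frame m n T) {u : Fin n → REF.E m → ℝ} {ε r : ℝ}
    (hu : WIN.Refe ε r u) (y : E) (hy : T.starProjection y ∈ ball (0:E) r) :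
    lap (F.lift u) (gpl T (fderiv ℝ (F.lift u) y)).starProjection y = 0 := by
  have hu2 : ∀ a, ContDiff ℝ 2 (u a) := fun a => (hu.smooth a).of_le (by exact two_le_inf)
  have h1 := (COORD.lap_lift_eq_zero_iff F hu2 y).2 fun a => hu.exact a _ ?_
  · exact h1
  · have h2 : ‖F.xc y‖ = ‖T.starProjection y‖ := by
      unfold WIN.Frame.xc
      rw [LinearIsometryEquiv.norm_map]
      rfl
    rw [h2]
    rwa [mem_ball_zero_iff] at hy

/-- **[L5]** -/
theorem supStmt (E : Type*) [NormedAddCommGroup E] [InnerProductSpace ℝ E]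
    [FiniteDimensional ℝ E] [MeasurableSpace E] [BorelSpace E] (m n : ℕ) :
    WIN.SupStmt E m n := by
  have hcg := cg_pos m
  refine ⟨1 / (n + 1), Real.exp (3 * m / 2) * 2 ^ m / cg m, by positivity, by positivity, ?_⟩
  intro T F u Q r θ h δ ν P hu hr hθ hθr hI y hy hyr
  have hw := COORD.kms_ref_lift F hu.smooth
  have hε : (n : ℝ) * (1 / (n + 1)) ≤ 1 := by
    rw [mul_one_div, div_le_one (by positivity)]; linarith
  have hb := lift_bounds F hu hε
  have hs : 0 < θ / 2 := by positivity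
  have key := sup_rel (κ := 1) (s := θ / 2) hI hw (lift_exact F hu) (fun y _ => (hb y).2.1)
    (fun y _ => (hb y).2.2) hy hs (by rw [sub_zero]; linarith)
  have hint := integrableOn_rel_sq' (z := 0) (R := r) hI.cyl hw (fun y => (hb y).1) subset_rfl
  have h1 : ∫ y' in cylSet T (T.starProjection y) (θ / 2), ‖rel T (F.lift u) y'‖ ^ 2 ∂ν
      ≤ WIN.hE T (F.lift u) ν r := by
    refine setIntegral_mono_set hint (Eventually.of_forall fun _ => sq_nonneg _)
      (Eventually.of_forall fun y' hy' => ?_)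
    change T.starProjection y' ∈ ball (T.starProjection y) (θ / 2) at hy'
    change T.starProjection y' ∈ ball (0 : E) r
    rw [mem_ball] at hy' ⊢
    have := dist_triangle (T.starProjection y') (T.starProjection y) 0
    rw [dist_zero_right (T.starProjection y)] at this
    linarith
  have hE0 : 0 ≤ WIN.hE T (F.lift u) ν r := integral_nonneg fun _ => sq_nonneg _
  have h2 : Real.exp (3 * m * 1 ^ 2 * (θ / 2) ^ 2 / 2) ≤ Real.exp (3 * m / 2) := by
    refine Real.exp_le_exp.2 ?_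
    have : (θ / 2) ^ 2 ≤ 1 := by nlinarith
    have hm : (0:ℝ) ≤ m := Nat.cast_nonneg m
    have : 3 * (m:ℝ) * (θ / 2) ^ 2 ≤ 3 * m * 1 := by gcongr
    nlinarith
  have h3 : (∫ y' in cylSet T (T.starProjection y) (θ / 2), ‖rel T (F.lift u) y'‖ ^ 2 ∂ν)
      / (θ / 2) ^ m ≤ 2 ^ m * θ⁻¹ ^ m * WIN.hE T (F.lift u) ν r := by
    rw [div_pow, div_div_eq_mul_div, inv_pow, div_le_iff₀ (by positivity)]
    calc _ ≤ WIN.hE T (F.lift u) ν r * 2 ^ m := by gcongr
      _ = _ := by field_simp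
  have h4 : cg m * ‖rel T (F.lift u) y‖ ^ 2 ≤ Real.exp (3 * m / 2) *
      (2 ^ m * θ⁻¹ ^ m * WIN.hE T (F.lift u) ν r) := by
    refine key.trans ?_
    have h5 : 0 ≤ (∫ y' in cylSet T (T.starProjection y) (θ / 2),
        ‖rel T (F.lift u) y'‖ ^ 2 ∂ν) / (θ / 2) ^ m :=
      div_nonneg (integral_nonneg fun _ => sq_nonneg _) (by positivity)
    exact mul_le_mul h2 h3 h5 (Real.exp_pos _).le
  calc ‖rel T (F.lift u) y‖ ^ 2 = (cg m * ‖rel T (F.lift u) y‖ ^ 2) / cg m := by
        field_simp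
    _ ≤ (Real.exp (3 * m / 2) * (2 ^ m * θ⁻¹ ^ m * WIN.hE T (F.lift u) ν r)) / cg m := by
        gcongr
    _ = _ := by ring

end Vale.Agent.P214.HSW
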