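import Vale.Agent.P214.HS.MeanValue
import Vale.Agent.P214.FV.Cyl

/-! Mean value inequality for general nonnegative functions with `tr (P D²F) ≥ -λ F`. -/

open Set Filter Topology MeasureTheory Metric
open scoped RealInnerProductSpace

set_option linter.unusedSectionVars false

namespace Vale.Agent.P214.HSW

open Vale.Agent.P214 Vale.Agent.P214.FV Vale.Agent.P214.HS

variable {E : Type*} [NormedAddCommGroup E] [InnerProductSpace ℝ E] [FiniteDimensional ℝ E]
  [MeasurableSpace E] [BorelSpace E]

variable {m : ℕ} {O : Set E} {ν : Measure E} {P : E → E →L[ℝ] E} {x : E} {r : ℝ}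

/-- the potential is at most `r²/6` times the cut-off -/
lemma pcut_le (x : E) (r : ℝ) (y : E) : pcut x r y ≤ r ^ 2 / 6 * cut x r y := by
  unfold pcut cut
  have hs : 0 ≤ ‖y - x‖ ^ 2 / r ^ 2 := by positivity
  set s := ‖y - x‖ ^ 2 / r ^ 2
  have h1 : pprof s ≤ prof s / 3 := by
    unfold pprof prof
    have h2 : max (1 - s) 0 ≤ 1 := max_le (by linarith) zero_le_one
    have h3 : 0 ≤ max (1 - s) 0 := le_max_right _ _
    have h4 : max (1 - s) 0 ^ 3 ≤ max (1 - s) 0 ^ 2 :=
      pow_le_pow_of_le_one h3 h2 (by norm_num)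
    linarith
  calc r ^ 2 / 2 * pprof s ≤ r ^ 2 / 2 * (prof s / 3) := by gcongr
    _ = _ := by ring

/-- the gradient term is the integral of the potential against `tr (P D²F)` -/
lemma gradTerm_eq [IsFiniteMeasure ν] (h : LocStat m O ν P) {F : E → ℝ} (hF : ContDiff ℝ 2 F)
    (hr : 0 < r) (hball : closedBall x r ⊆ O) :
    gradTerm ν P x F r = ∫ y, pcut x r y * hess F (P y) y ∂ν := by
  have hg := contDiff_grad hF
  have hX : ContDiff ℝ 1 (fun y => pcut x r y • grad F y) := (contDiff_pcut x r).smul hg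
  have hXc : HasCompactSupport (fun y => pcut x r y • grad F y) :=
    (hasCompactSupport_pcut (x := x) hr).smul_right
  have hXs : tsupport (fun y => pcut x r y • grad F y) ⊆ O := by
    refine (closure_mono ?_).trans ((tsupport_pcut (x := x) hr).trans hball)
    exact Function.support_smul_subset_left _ _
  have key := LocStat.vec h hX hXc hXs
  have hg' : Continuous (fderiv ℝ (grad F)) := hg.continuous_fderiv (by norm_num)
  have i1 : Integrable (fun y => pcut x r y * hess F (P y) y) ν := by
    have h1 := LocStat.integrable_tr h (B := fun y => pcut x r y • fderiv ℝ (grad F) y)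
      ((contDiff_pcut x r).continuous.smul hg') ((hasCompactSupport_pcut (x := x) hr).smul_right)
    refine h1.congr (Eventually.of_forall fun y => ?_)
    simp only
    rw [ContinuousLinearMap.smul_comp, tr_smul]
    rfl
  have i2 : Integrable (fun y => fderiv ℝ (pcut x r) y (P y (grad F y))) ν :=
    h.integrable_fderiv (contDiff_pcut x r) (hasCompactSupport_pcut hr) hg.continuous
  have e1 : ∫ y, tr ((fderiv ℝ (fun y => pcut x r y • grad F y) y).comp (P y)) ∂ν
      = ∫ y, (pcut x r y * hess F (P y) y + fderiv ℝ (pcut x r) y (P y (grad F y))) ∂ν := by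
    refine integral_congr_ae (Eventually.of_forall fun y => ?_)
    exact tr_fderiv_smul ((contDiff_pcut x r).differentiable (by norm_num) y)
      (hg.differentiable (by norm_num) y) (P y)
  rw [e1, integral_add i1 i2] at key
  have e2 : gradTerm ν P x F r = -∫ y, fderiv ℝ (pcut x r) y (P y (grad F y)) ∂ν := by
    unfold gradTerm
    rw [← integral_neg]
    refine integral_congr_ae ?_
    filter_upwards [h.proj] with y hy
    obtain ⟨S, -, hS⟩ := hy
    rw [fderiv_pcut hr, hS, ← inner_grad]
    have : ⟪y - x, S.starProjection (grad F y)⟫ = ⟪grad F y, S.starProjection (y - x)⟫ := by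
      rw [← Submodule.inner_starProjection_left_eq_right, real_inner_comm]
    rw [this]; ring
  rw [e2]; linarith

/-- lower bound for the gradient term -/
lemma gradTerm_ge [IsFiniteMeasure ν] (h : LocStat m O ν P) {F : E → ℝ} (hF : ContDiff ℝ 2 F)
    (hF0 : ∀ y, 0 ≤ F y) {lam : ℝ} (hlam : 0 ≤ lam) (hr : 0 < r) (hball : closedBall x r ⊆ O)
    (hlap : ∀ᵐ y ∂ν, y ∈ closedBall x r → -(lam * F y) ≤ hess F (P y) y) :
    -(lam * r ^ 2 / 6 * wmass ν x F r) ≤ gradTerm ν P x F r := by
  rw [gradTerm_eq h hF hr hball]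
  have hg := contDiff_grad hF
  have hg' : Continuous (fderiv ℝ (grad F)) := hg.continuous_fderiv (by norm_num)
  have i1 : Integrable (fun y => pcut x r y * hess F (P y) y) ν := by
    have h1 := LocStat.integrable_tr h (B := fun y => pcut x r y • fderiv ℝ (grad F) y)
      ((contDiff_pcut x r).continuous.smul hg') ((hasCompactSupport_pcut (x := x) hr).smul_right)
    refine h1.congr (Eventually.of_forall fun y => ?_)
    simp only
    rw [ContinuousLinearMap.smul_comp, tr_smul]
    rfl
  have i2 : Integrable (fun y => cut x r y * F y) ν :=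
    integrable_of_ball (x := x) ((continuous_cut x r).mul hF.continuous) hr fun y hy => by
      rw [cut_eq_zero hr hy, zero_mul]
  unfold wmass
  rw [← integral_const_mul, ← integral_neg]
  refine integral_mono_ae (i2.const_mul _).neg i1 ?_
  filter_upwards [hlap] with y hy
  have h0 := hF0 y
  have hp0 := pcut_nonneg x r y
  have hc0 := cut_nonneg x r y
  by_cases hyr : y ∈ closedBall x r
  · have h1 := hy hyr
    have h2 := pcut_le x r y
    calc -(lam * r ^ 2 / 6 * (cut x r y * F y)) = -(lam * F y) * (r ^ 2 / 6 * cut x r y) := by ring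
      _ ≤ -(lam * F y) * pcut x r y := by
          have : 0 ≤ lam * F y := by positivity
          nlinarith
      _ ≤ hess F (P y) y * pcut x r y := by gcongr
      _ = _ := by ring
  · rw [mem_closedBall, dist_eq_norm, not_le] at hyr
    have h1 : pcut x r y = 0 := by
      unfold pcut; rw [pprof_of_one_le (one_le_of_le hr hyr.le), mul_zero]
    rw [h1, cut_eq_zero hr hyr.le]
    simp

/-- **monotonicity of exponentially weighted means** -/
lemma exp_mean_mono [IsFiniteMeasure ν] (h : LocStat m O ν P) {F : E → ℝ} (hF : ContDiff ℝ 2 F)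
    (hF0 : ∀ y, 0 ≤ F y) {lam : ℝ} (hlam : 0 ≤ lam) {r₁ r₂ : ℝ} (h1 : 0 < r₁) (h12 : r₁ ≤ r₂)
    (hball : closedBall x r₂ ⊆ O)
    (hlap : ∀ᵐ y ∂ν, y ∈ closedBall x r₂ → -(lam * F y) ≤ hess F (P y) y) :
    Real.exp (lam * r₁ ^ 2 / 12) * (wmass ν x F r₁ / r₁ ^ m)
      ≤ Real.exp (lam * r₂ ^ 2 / 12) * (wmass ν x F r₂ / r₂ ^ m) := by
  have hd : ∀ s ∈ Icc r₁ r₂, HasDerivAt (fun s => Real.exp (lam * s ^ 2 / 12)
      * (wmass ν x F s / s ^ m)) (Real.exp (lam * s ^ 2 / 12) * (lam * s / 6)
      * (wmass ν x F s / s ^ m) + Real.exp (lam * s ^ 2 / 12) *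
      ((2 / s ^ 2 * tiltTerm ν P x F s + gradTerm ν P x F s) / s ^ (m + 1))) s := by
    intro s hs
    have h2 := h.hasDerivAt_ratio (hF.of_le (by norm_num)) (h1.trans_le hs.1)
      ((closedBall_subset_closedBall hs.2).trans hball)
    have h3 : HasDerivAt (fun s : ℝ => lam * s ^ 2 / 12) (lam * s / 6) s := by
      have := ((hasDerivAt_pow 2 s).const_mul lam).div_const 12
      refine this.congr_deriv ?_
      simp; ring
    exact h3.exp.mul h2
  have hmono : MonotoneOn (fun s => Real.exp (lam * s ^ 2 / 12)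
      * (wmass ν x F s / s ^ m)) (Icc r₁ r₂) := by
    refine monotoneOn_of_deriv_nonneg (convex_Icc r₁ r₂)
      (fun s hs => (hd s hs).continuousAt.continuousWithinAt)
      (fun s hs => (hd s (interior_subset hs)).differentiableAt.differentiableWithinAt) ?_
    intro s hs
    have hs' := interior_subset hs
    have hs0 : 0 < s := h1.trans_le hs'.1
    rw [(hd s hs').deriv]
    have ht := tiltTerm_nonneg (ν := ν) (P := P) (x := x) (r := s) hF0
    have hg := gradTerm_ge h hF hF0 hlam hs0 ((closedBall_subset_closedBall hs'.2).trans hball)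
      (by filter_upwards [hlap] with y hy hys
          exact hy (closedBall_subset_closedBall hs'.2 hys))
    have e1 : Real.exp (lam * s ^ 2 / 12) * (lam * s / 6) * (wmass ν x F s / s ^ m)
        + Real.exp (lam * s ^ 2 / 12) *
          ((2 / s ^ 2 * tiltTerm ν P x F s + gradTerm ν P x F s) / s ^ (m + 1))
        = Real.exp (lam * s ^ 2 / 12) / s ^ (m + 1) * (lam * s ^ 2 / 6 * wmass ν x F s
          + 2 / s ^ 2 * tiltTerm ν P x F s + gradTerm ν P x F s) := by
      rw [pow_succ]; field_simp; ring
    rw [e1]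
    refine mul_nonneg (by positivity) ?_
    have : 0 ≤ 2 / s ^ 2 * tiltTerm ν P x F s := by positivity
    linarith
  exact hmono ⟨le_rfl, h12⟩ ⟨h12, le_rfl⟩ h12

/-- **Mean value inequality** at support points. -/
theorem le_mean [IsFiniteMeasure ν] (h : LocStat m O ν P) {a : ℝ} (ha : 0 < a)
    (hd : DensLow m O ν a) (hx : x ∈ ν.support) {F : E → ℝ} (hF : ContDiff ℝ 2 F)
    (hF0 : ∀ y, 0 ≤ F y) {lam : ℝ} (hlam : 0 ≤ lam) (hr : 0 < r) (hball : closedBall x r ⊆ O)
    (hlap : ∀ᵐ y ∂ν, y ∈ closedBall x r → -(lam * F y) ≤ hess F (P y) y) :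
    a * F x ≤ Real.exp (lam * r ^ 2 / 12) * (wmass ν x F r / r ^ m) := by
  have hcont : Continuous F := hF.continuous
  have hw0 : ∀ s, 0 ≤ wmass ν x F s := fun s => integral_nonneg fun y =>
    mul_nonneg (cut_nonneg x s y) (hF0 y)
  refine le_of_forall_sub_le fun ε hε => ?_
  have hev : ∀ᶠ y in 𝓝 x, F x - ε / a < F y := by
    refine hcont.continuousAt.eventually (lt_mem_nhds ?_)
    have : 0 < ε / a := by positivity
    linarith
  obtain ⟨δ, hδ, hball'⟩ := Metric.eventually_nhds_iff_ball.1 hev
  set s := min δ r with hs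
  have hs0 : 0 < s := lt_min hδ hr
  have hsr : s ≤ r := min_le_right _ _
  have h1 := exp_mean_mono h hF hF0 hlam hs0 hsr hball hlap
  have h2 := h.ratio_ge hd hx hs0 ((closedBall_subset_closedBall hsr).trans hball)
  have hcutint : Integrable (fun y => cut x s y) ν :=
    integrable_of_ball (x := x) (continuous_cut x s) hs0 fun y hy => cut_eq_zero hs0 hy
  have hcutF : Integrable (fun y => cut x s y * F y) ν :=
    integrable_of_ball (x := x) ((continuous_cut x s).mul hcont) hs0 fun y hy => by
      rw [cut_eq_zero hs0 hy, zero_mul]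
  have h3 : (F x - ε / a) * ∫ y, cut x s y ∂ν ≤ wmass ν x F s := by
    unfold wmass
    rw [← integral_const_mul]
    refine integral_mono (hcutint.const_mul _) hcutF fun y => ?_
    simp only
    by_cases hy : s ≤ ‖y - x‖
    · rw [cut_eq_zero hs0 hy]; simp
    · have hyb : y ∈ ball x δ := by
        rw [mem_ball, dist_eq_norm]; exact (not_le.1 hy).trans_le (min_le_left _ _)
      have := hball' y hyb
      have h4 := cut_nonneg x s y
      nlinarith
  have h5 : (F x - ε / a) * ratio m ν x s ≤ wmass ν x F s / s ^ m := by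
    unfold ratio
    rw [← mul_div_assoc]
    gcongr
  have h6 : wmass ν x F s / s ^ m ≤ Real.exp (lam * s ^ 2 / 12) * (wmass ν x F s / s ^ m) := by
    have h7 : 0 ≤ wmass ν x F s / s ^ m := div_nonneg (hw0 s) (by positivity)
    have h8 : 1 ≤ Real.exp (lam * s ^ 2 / 12) := Real.one_le_exp (by positivity)
    nlinarith
  have h7 : 0 ≤ Real.exp (lam * r ^ 2 / 12) * (wmass ν x F r / r ^ m) :=
    mul_nonneg (Real.exp_pos _).le (div_nonneg (hw0 r) (by positivity))
  by_cases hneg : F x - ε / a ≤ 0
  · have h8 : a * F x ≤ ε := by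
      have : F x ≤ ε / a := by linarith
      rwa [le_div_iff₀ ha, mul_comm] at this
    linarith
  · have h8 : (F x - ε / a) * a ≤ (F x - ε / a) * ratio m ν x s :=
      mul_le_mul_of_nonneg_left h2 (not_le.1 hneg).le
    have h9 : (F x - ε / a) * a = a * F x - ε := by field_simp
    linarith

end Vale.Agent.P214.HSW
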